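import Vale.Agent.P235.LL.Rows

/-! P235, LL, row SINGLE: `RowLin` implies `RowSingle`. -/

namespace Vale.Agent.P235.LL.H867

open Vale.Agent.P235 Vale.Agent.P235.LL Finset

variable {V : Type} {G : SimpleGraph V} {ℓ : Sym2 V → ℝ} {K : ℝ}

/-- the set of admissible numbers of steps is nonempty -/
theorem Jm_ne [Finite V] (D : Dom V) (k : Fin 3 × Bool) :
    {j | 1 ≤ j ∧ ∀ v ∈ D.U, 0 < D.s k v → 1 ≤ 2 ^ j * D.s k v}.Nonempty := by
  classical
  cases nonempty_fintype V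
  have h1 : ∀ v : V, ∃ j : ℕ, 0 < D.s k v → 1 ≤ (2 : ℝ) ^ j * D.s k v := by
    intro v
    by_cases hv : 0 < D.s k v
    · obtain ⟨j, hj⟩ := pow_unbounded_of_one_lt (1 / D.s k v) (one_lt_two : (1 : ℝ) < 2)
      refine ⟨j, fun _ => ?_⟩
      rw [div_lt_iff₀ hv] at hj
      exact hj.le
    · exact ⟨0, fun h => absurd h hv⟩
  choose f hf using h1
  refine ⟨1 + ∑ v, f v, by omega, fun v _ hv => (hf v hv).trans ?_⟩
  have h2 : f v ≤ 1 + ∑ v, f v := by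
    have := Finset.single_le_sum (f := f) (fun i _ => Nat.zero_le _) (Finset.mem_univ v)
    omega
  exact mul_le_mul_of_nonneg_right (pow_le_pow_right₀ one_le_two h2) hv.le

theorem one_le_Jm [Finite V] (D : Dom V) (k : Fin 3 × Bool) : 1 ≤ D.Jm k :=
  (Nat.sInf_mem (Jm_ne D k)).1

theorem mass_nonneg (D : Dom V) (k : Fin 3 × Bool) (j : ℕ) : 0 ≤ D.mass k j := by
  unfold Dom.mass
  split_ifs <;> positivity

theorem mass_aux (J : ℕ) : (∑ j ∈ range J, 1 / 16 * (15 / 16 : ℝ) ^ j) = 1 - (15 / 16) ^ J := by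
  induction J with
  | zero => simp
  | succ n ih => rw [sum_range_succ, ih, pow_succ]; ring

theorem mass_sum [Finite V] (D : Dom V) (k : Fin 3 × Bool) :
    ∑ j ∈ range (D.Jm k), D.mass k j = 1 := by
  obtain ⟨J, hJ⟩ : ∃ J, D.Jm k = J + 1 := ⟨D.Jm k - 1, by have := one_le_Jm D k; omega⟩
  rw [hJ, sum_range_succ]
  have h1 : ∑ j ∈ range J, D.mass k j = ∑ j ∈ range J, 1 / 16 * (15 / 16 : ℝ) ^ j := by
    refine sum_congr rfl fun j hj => ?_
    have hj' := mem_range.1 hj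
    unfold Dom.mass
    rw [if_neg (by omega)]
  have h2 : D.mass k J = (15 / 16) ^ J := by
    unfold Dom.mass
    rw [if_pos hJ.symm]
  rw [h1, h2, mass_aux]
  ring

theorem E_mono {D : Dom V} {f g : Fin 3 × Bool → ℕ → ℝ} (h : ∀ k j, f k j ≤ g k j) :
    Sys.E D f ≤ Sys.E D g := by
  unfold Sys.E
  refine sum_le_sum fun k _ => mul_le_mul_of_nonneg_left ?_ (by norm_num)
  exact sum_le_sum fun j _ => mul_le_mul_of_nonneg_left (h k j) (mass_nonneg D k j)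

theorem E_add (D : Dom V) (f g : Fin 3 × Bool → ℕ → ℝ) :
    Sys.E D (fun k j => f k j + g k j) = Sys.E D f + Sys.E D g := by
  unfold Sys.E
  simp only [mul_add, sum_add_distrib]

theorem E_sub (D : Dom V) (f g : Fin 3 × Bool → ℕ → ℝ) :
    Sys.E D (fun k j => f k j - g k j) = Sys.E D f - Sys.E D g := by
  unfold Sys.E
  simp only [mul_sub, sum_sub_distrib]

theorem E_mul (D : Dom V) (a : ℝ) (f : Fin 3 × Bool → ℕ → ℝ) :
    Sys.E D (fun k j => a * f k j) = a * Sys.E D f := by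
  unfold Sys.E
  rw [mul_sum]
  refine sum_congr rfl fun k _ => ?_
  rw [mul_left_comm, mul_sum, mul_sum, mul_sum]
  refine sum_congr rfl fun j _ => ?_
  ring

theorem E_const [Finite V] (D : Dom V) (a : ℝ) : Sys.E D (fun _ _ => a) = a := by
  unfold Sys.E
  have h : ∀ k, ∑ j ∈ range (D.Jm k), D.mass k j * a = a := fun k => by
    rw [← sum_mul, mass_sum, one_mul]
  simp only [h]
  rw [sum_const, card_univ]
  have : Fintype.card (Fin 3 × Bool) = 6 := by simp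
  rw [this]
  simp

theorem E_nonneg {D : Dom V} {f : Fin 3 × Bool → ℕ → ℝ} (h : ∀ k j, 0 ≤ f k j) :
    0 ≤ Sys.E D f := by
  unfold Sys.E
  exact sum_nonneg fun k _ => mul_nonneg (by norm_num) (sum_nonneg fun j _ =>
    mul_nonneg (mass_nonneg D k j) (h k j))

theorem dto_nonneg (hℓ : ∀ e ∈ G.edgeSet, 0 < ℓ e) (S : Set V) (x : V) : 0 ≤ dto G ℓ S x :=
  Real.iInf_nonneg fun _ => pathDist_nonneg hℓ _ _

theorem dto_anti (hℓ : ∀ e ∈ G.edgeSet, 0 < ℓ e) {S T : Set V} (h : S ⊆ T) (hS : S.Nonempty)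
    (x : V) : dto G ℓ T x ≤ dto G ℓ S x := by
  obtain ⟨b, hb⟩ := hS
  have : Nonempty S := ⟨⟨b, hb⟩⟩
  unfold dto
  refine le_ciInf fun c => ?_
  exact ciInf_le ⟨0, by rintro _ ⟨y, rfl⟩; exact pathDist_nonneg hℓ _ _⟩ (⟨c.1, h c.2⟩ : T)

theorem sub_vis (D : Dom V) (k : Fin 3 × Bool) (j : ℕ) : D.Uᶜ ⊆ D.vis k j :=
  fun _ hv hU => absurd hU hv

theorem Nd_nonneg (hℓ : ∀ e ∈ G.edgeSet, 0 < ℓ e) (D D' : Dom V) (k : Fin 3 × Bool) (j : ℕ)
    (x : V) : 0 ≤ Sys.Nd G ℓ D D' k j x := by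
  refine Real.iInf_nonneg fun e => ?_
  have h1 := dto_nonneg hℓ D.Uᶜ e.1.2
  positivity

theorem N_nonneg (hℓ : ∀ e ∈ G.edgeSet, 0 < ℓ e) (S : Sys G ℓ K) (D : Dom V)
    (k : Fin 3 × Bool) (j : ℕ) (x : V) : 0 ≤ S.N D k j x := by
  unfold Sys.N
  split_ifs
  · exact dto_nonneg hℓ _ _
  · exact Nd_nonneg hℓ _ _ _ _ _

theorem ch_spec (S : Sys G ℓ K) {D : Dom V} (hD : S.Good D) (k : Fin 3 × Bool) (j : ℕ) {x : V}
    (hx : x ∉ D.vis k (j + 1)) : S.Good (S.ch D k j x) ∧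
      (S.ch D k j x).U = compSet G (D.vis k (j + 1)) x ∧ Link G D (S.ch D k j x) k (j + 1) := by
  unfold Sys.ch Sys.chS
  have h := S.child D hD k j x hx
  rw [dif_pos h]
  exact h.choose_spec

theorem ch_sub (S : Sys G ℓ K) {D : Dom V} (hD : S.Good D) (k : Fin 3 × Bool) (j : ℕ) {x : V}
    (hx : x ∉ D.vis k (j + 1)) : (S.ch D k j x).U ⊆ (D.vis k (j + 1))ᶜ := by
  rw [(ch_spec S hD k j hx).2.1]
  exact fun v hv => ReachOff.right hv

theorem mem_ch (S : Sys G ℓ K) {D : Dom V} (hD : S.Good D) (k : Fin 3 × Bool) (j : ℕ) {x : V}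
    (hx : x ∉ D.vis k (j + 1)) : x ∈ (S.ch D k j x).U := by
  rw [(ch_spec S hD k j hx).2.1]
  exact ReachOff.refl hx

theorem vis_ne (S : Sys G ℓ K) {D : Dom V} (hD : S.Good D) (k : Fin 3 × Bool) (j : ℕ) :
    (D.vis k j).Nonempty := by
  obtain ⟨b, hb⟩ := (S.dom D hD).out
  exact ⟨b, sub_vis D k j hb⟩

theorem ch_card [Finite V] (S : Sys G ℓ K) {D : Dom V} (hD : S.Good D) (k : Fin 3 × Bool) (j : ℕ)
    {x : V} (hx : x ∉ D.vis k (j + 1)) : (S.ch D k j x).U.ncard < D.U.ncard := by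
  obtain ⟨v, hv, hs⟩ := (S.dom D hD).one k
  refine Set.ncard_lt_ncard ?_ (Set.toFinite _)
  have h1 : (S.ch D k j x).U ⊆ D.U := fun a ha => by
    by_contra h
    exact ch_sub S hD k j hx ha (sub_vis D k (j + 1) h)
  refine ⟨h1, fun h2 => ch_sub S hD k j hx (h2 hv) ?_⟩
  intro _
  refine ⟨by omega, ?_⟩
  rw [hs, mul_one]
  exact one_le_pow₀ one_le_two

theorem dto_ch (hℓ : ∀ e ∈ G.edgeSet, 0 < ℓ e) (S : Sys G ℓ K) {D : Dom V} (hD : S.Good D)
    (k : Fin 3 × Bool) (j : ℕ) {x : V} (hx : x ∉ D.vis k (j + 1)) :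
    dto G ℓ (S.ch D k j x).Uᶜ x ≤ dto G ℓ (D.vis k (j + 1)) x := by
  refine dto_anti hℓ ?_ (vis_ne S hD k _) x
  exact fun v hv h => ch_sub S hD k j hx h hv

theorem R1_nonneg (hℓ : ∀ e ∈ G.edgeSet, 0 < ℓ e) (S : Sys G ℓ K) {D : Dom V} (hD : S.Good D)
    (x : V) : 0 ≤ Sys.R1 G ℓ D x := by
  refine E_nonneg fun k j => ?_
  have h := dto_anti hℓ (sub_vis D k (j + 1)) ((S.dom D hD).out) x
  linarith

theorem R2_nonneg (hℓ : ∀ e ∈ G.edgeSet, 0 < ℓ e) (S : Sys G ℓ K) {D : Dom V} (hD : S.Good D)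
    (x : V) : 0 ≤ S.R2 D x := by
  refine E_nonneg fun k j => ?_
  split_ifs with h
  · exact le_rfl
  · exact R1_nonneg hℓ S (ch_spec S hD k j h).1 x

theorem EN_nonneg (hℓ : ∀ e ∈ G.edgeSet, 0 < ℓ e) (S : Sys G ℓ K) (D : Dom V)
    (x : V) : 0 ≤ S.EN D x :=
  E_nonneg fun k j => N_nonneg hℓ S D k j x

/-- the inductive statement -/
theorem main [Finite V] (hℓ : ∀ e ∈ G.edgeSet, 0 < ℓ e) (S : Sys G ℓ K) {K1 K2 : ℝ}
    (hK1 : 0 ≤ K1)
    (hlin : ∀ D : Dom V, S.Good D → ∀ k j, ∀ x ∉ D.vis k (j + 1),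
      dto G ℓ D.Uᶜ x - dto G ℓ (S.ch D k j x).Uᶜ x ≤ K1 * S.N D k j x +
        K2 * S.EN (S.ch D k j x) x + 1 / 16 * Sys.R1 G ℓ (S.ch D k j x) x +
        1 / 16 * S.R2 (S.ch D k j x) x) (n : ℕ) :
    ∀ D : Dom V, S.Good D → D.U.ncard ≤ n → ∀ x ∈ D.U,
      7 / 8 * dto G ℓ D.Uᶜ x + 1 / 8 * Sys.R1 G ℓ D x + 1 / 16 * S.R2 D x + K2 * S.EN D x ≤
        (1 + K1 + K2) * S.SN n D x := by
  classical
  induction n with
  | zero =>
    intro D _ hn x hx
    exact absurd ((Set.ncard_pos (Set.toFinite _)).2 ⟨x, hx⟩) (by omega)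
  | succ n ih =>
    intro D hD hn x hx
    have hR1 : Sys.R1 G ℓ D x = dto G ℓ D.Uᶜ x - Sys.E D fun k j => dto G ℓ (D.vis k (j + 1)) x := by
      unfold Sys.R1
      rw [E_sub, E_const]
    have hSN : S.SN (n + 1) D x = Sys.E D fun k j =>
      S.N D k j x + if x ∈ D.vis k (j + 1) then 0 else S.SN n (S.ch D k j x) x := by
      simp only [Sys.SN]
    have hR2 : S.R2 D x = Sys.E D fun k j => if x ∈ D.vis k (j + 1) then 0 else
      Sys.R1 G ℓ (S.ch D k j x) x := by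
      unfold Sys.R2
      rfl
    have hEN : S.EN D x = Sys.E D fun k j => S.N D k j x := rfl
    have key : (Sys.E D fun k j => dto G ℓ D.Uᶜ x + -(1 / 8) * dto G ℓ (D.vis k (j + 1)) x +
        1 / 16 * (if x ∈ D.vis k (j + 1) then 0 else Sys.R1 G ℓ (S.ch D k j x) x) +
        K2 * S.N D k j x) ≤ Sys.E D fun k j => (1 + K1 + K2) *
          (S.N D k j x + if x ∈ D.vis k (j + 1) then 0 else S.SN n (S.ch D k j x) x) := by
      refine E_mono fun k j => ?_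
      have hN := N_nonneg hℓ S D k j x
      have hKN : 0 ≤ K1 * S.N D k j x := mul_nonneg hK1 hN
      by_cases hv : x ∈ D.vis k (j + 1)
      · rw [if_pos hv, if_pos hv]
        have h1 : S.N D k j x = dto G ℓ D.Uᶜ x := by
          unfold Sys.N
          rw [if_pos hv]
        have h2 := dto_nonneg hℓ (D.vis k (j + 1)) x
        rw [← h1]
        nlinarith
      · rw [if_neg hv, if_neg hv]
        have h1 := hlin D hD k j x hv
        have h2 := ih (S.ch D k j x) (ch_spec S hD k j hv).1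
          (by have := ch_card S hD k j hv; omega) x (mem_ch S hD k j hv)
        have h3 := dto_ch hℓ S hD k j hv
        have h4 := mul_add (1 + K1 + K2) (S.N D k j x) (S.SN n (S.ch D k j x) x)
        rw [h4]
        nlinarith
    rw [E_mul, E_add, E_add, E_add, E_const, E_mul, E_mul, E_mul] at key
    rw [hR1, hSN, hR2, hEN]
    linarith

/-- row SINGLE -/
theorem rowSingle (h : RowLin) : RowSingle := by
  obtain ⟨K1, K2, hK1, hK2, h⟩ := h
  refine ⟨7 / 8 / (1 + K1 + K2), by positivity, ?_⟩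
  intro V _ G ℓ K hc hℓ hK S n D hD hn x hx
  have h1 := main hℓ S hK1 (fun D hD k j x hx => h V G ℓ K hc hℓ hK S D hD k j x hx) n D hD hn
    x hx
  have h2 := R1_nonneg hℓ S hD x
  have h3 := R2_nonneg hℓ S hD x
  have h4 := mul_nonneg hK2 (EN_nonneg hℓ S D x)
  have h5 : (0 : ℝ) < 1 + K1 + K2 := by positivity
  rw [div_mul_eq_mul_div, div_le_iff₀ h5]
  nlinarith

end Vale.Agent.P235.LL.H867
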